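import Vale.Agent.P262.Reduce
import Vale.Agent.P262.Schedule
import Vale.Agent.P262.Step.Main
import Vale.Agent.P262.Step.DataProof
import Vale.Agent.P262.Step.Child
import Vale.Agent.P262.Step.Pot
import Vale.Agent.P262.Lower

/-!
P262: the Euclidean Steinitz constant has order `√d`.
-/

namespace Vale.Agent.Results.P262.SteinitzBergstrom

open Vale.Agent.P262

/-- There are absolute constants `0 < c`, `0 < C` with `c √d ≤ S₂(d) ≤ C √d`: every zero-sum
family in the unit ball can be ordered with all partial sums of norm at most `C √d`, and some such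
family has, in every order, a partial sum of norm at least `c √d`. -/
theorem result :
    (∃ C : ℝ, 0 < C ∧ ∀ (d N : ℕ) (v : Fin N → EuclideanSpace ℝ (Fin d)),
      (∀ i, ‖v i‖ ≤ 1) → ∑ i, v i = 0 → ∃ π : Equiv.Perm (Fin N), ∀ k ≤ N,
        ‖∑ i ∈ Finset.univ.filter (fun i : Fin N => (i : ℕ) < k), v (π i)‖ ≤ C * Real.sqrt d) ∧
    (∃ c : ℝ, 0 < c ∧ ∀ d : ℕ, 1 ≤ d → ∃ (N : ℕ) (v : Fin N → EuclideanSpace ℝ (Fin d)),
      (∀ i, ‖v i‖ ≤ 1) ∧ ∑ i, v i = 0 ∧ ∀ π : Equiv.Perm (Fin N), ∃ k ≤ N,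
        c * Real.sqrt d ≤
          ‖∑ i ∈ Finset.univ.filter (fun i : Fin N => (i : ℕ) < k), v (π i)‖) := by
  constructor
  · obtain ⟨K, hK, h⟩ := Step.exists_dataProp
    obtain ⟨C, hC⟩ := steinitz_upper schedule_prop
      (Step.stepProp_of ⟨K, hK, h K le_rfl, Step.childProp hK, Step.potProp hK⟩)
    refine ⟨max C 1, lt_of_lt_of_le one_pos (le_max_right _ _), fun d N v hv hsum => ?_⟩
    obtain ⟨π, hπ⟩ := hC d N v hv hsum
    exact ⟨π, fun k hk => (hπ k hk).trans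
      (mul_le_mul_of_nonneg_right (le_max_left _ _) (Real.sqrt_nonneg _))⟩
  · refine ⟨1 / 3, by norm_num, fun d hd => ?_⟩
    obtain ⟨v, hv, hsum, hlow⟩ := steinitz_lower d hd
    refine ⟨2 * d, v, hv, hsum, fun π => ?_⟩
    obtain ⟨k, hk, h⟩ := hlow π
    exact ⟨k, hk, by rwa [one_div_mul_eq_div]⟩

end Vale.Agent.Results.P262.SteinitzBergstrom
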